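import Vale.Agent.P339.Game

open scoped BigOperators

namespace Vale.Agent.P339

variable {p : ℕ}

/-- Three real labels forming a Not-Two triple. -/
def IsRealSat (x y z : Lbl p) : Prop :=
  ∃ a b c, x = .inl a ∧ y = .inl b ∧ z = .inl c ∧ notTwo a b c

/-- The triples of labels that one rotation of copy `i` can satisfy completely. -/
def Good (i : ZMod p) (x y z : Lbl p) : Prop :=
  IsRealSat x y z ∨
    (∃ a b, x = .inl a ∧ y = .inl b ∧ (a || b) = true ∧ z = .inr (i + i)) ∨
    (x = .inr i ∧ y = .inr i ∧ ∃ b, z = .inl b) ∨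
    (∃ j, x = .inr j ∧ y = .inr j ∧ z = .inr (j + i))

theorem c2_F (i : ZMod p) (a : Lbl p × Bool) (h : rowC2 i i a = .inl false) :
    ∃ c : Bool, a.1 = .inl c := by
  obtain ⟨(c | k), b⟩ := a
  · exact ⟨c, rfl⟩
  · exfalso
    by_cases h1 : k = i + i
    · cases b <;> simp [rowC2, h1] at h
    · simp [rowC2, h1] at h

theorem c2_T (i : ZMod p) (a : Lbl p × Bool) (h : rowC2 i i a = .inl true) :
    a.1 = .inl false ∨ a.1 = .inr (i + i) := by
  obtain ⟨((_ | _) | k), b⟩ := a
  · exact Or.inl rfl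
  · cases b <;> simp [rowC2] at h
  · by_cases h1 : k = i + i
    · exact Or.inr (by simp [h1])
    · simp [rowC2, h1] at h

theorem c2_g (i : ZMod p) (a : Lbl p × Bool) (h : rowC2 i i a = .inr i) :
    a.1 = .inl true ∨ a.1 = .inr (i + i) := by
  obtain ⟨((_ | _) | k), b⟩ := a
  · cases b <;> simp [rowC2] at h
  · exact Or.inl rfl
  · by_cases h1 : k = i + i
    · exact Or.inr (by simp [h1])
    · simp only [rowC2, if_neg h1, Sum.inr.injEq] at h
      have : k = i + i := by linear_combination h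
      exact absurd this h1

theorem c2_j (i j : ZMod p) (hj : j ≠ i) (a : Lbl p × Bool) (h : rowC2 i i a = .inr j) :
    a.1 = .inr (j + i) := by
  obtain ⟨((_ | _) | k), b⟩ := a
  · cases b <;> simp [rowC2] at h
  · cases b <;> simp [rowC2] at h
    exact absurd h.symm hj
  · by_cases h1 : k = i + i
    · exfalso
      cases b <;> simp [rowC2, h1] at h
      exact hj h.symm
    · simp only [rowC2, if_neg h1, Sum.inr.injEq] at h
      have : k = j + i := by rw [← h]; ring
      simp [this]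

theorem good_of_rows (i : ZMod p) (a₁ a₂ : Lbl p × Bool)
    (h : rowC1 i a₁ = rowC2 i i a₂) : Good i a₁.1 (rowY a₁) a₂.1 := by
  obtain ⟨((_ | _) | j), b₁⟩ := a₁
  · cases b₁
    · obtain ⟨c, hc⟩ := c2_F i a₂ h.symm
      refine Or.inl ⟨false, false, c, rfl, rfl, hc, ?_⟩
      cases c <;> decide
    · rcases c2_T i a₂ h.symm with hc | hc
      · exact Or.inl ⟨false, true, false, rfl, rfl, hc, by decide⟩
      · exact Or.inr (Or.inl ⟨false, true, rfl, rfl, rfl, hc⟩)
  · cases b₁
    · rcases c2_T i a₂ h.symm with hc | hc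
      · exact Or.inl ⟨true, false, false, rfl, rfl, hc, by decide⟩
      · exact Or.inr (Or.inl ⟨true, false, rfl, rfl, rfl, hc⟩)
    · rcases c2_g i a₂ h.symm with hc | hc
      · exact Or.inl ⟨true, true, true, rfl, rfl, hc, by decide⟩
      · exact Or.inr (Or.inl ⟨true, true, rfl, rfl, rfl, hc⟩)
  · by_cases hj : j = i
    · subst hj
      cases b₁
      · have h' : rowC2 j j a₂ = .inl false := by simpa [rowC1] using h.symm
        obtain ⟨c, hc⟩ := c2_F j a₂ h'
        exact Or.inr (Or.inr (Or.inl ⟨rfl, rfl, c, hc⟩))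
      · have h' : rowC2 j j a₂ = .inr j := by simpa [rowC1] using h.symm
        rcases c2_g j a₂ h' with hc | hc
        · exact Or.inr (Or.inr (Or.inl ⟨rfl, rfl, true, hc⟩))
        · exact Or.inr (Or.inr (Or.inr ⟨j, rfl, rfl, hc⟩))
    · have h' : rowC2 i i a₂ = .inr j := by simpa [rowC1, hj] using h.symm
      exact Or.inr (Or.inr (Or.inr ⟨j, rfl, rfl, c2_j i j hj a₂ h'⟩))

/-- Doubling is injective modulo an odd number. -/
theorem double_inj {m : ℕ} {i i' : ZMod (2 * m + 1)} (h : i + i = i' + i') : i = i' := by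
  have h0 : (2 * (m : ZMod (2 * m + 1)) + 1) = 0 := by
    have := ZMod.natCast_self (2 * m + 1)
    push_cast at this
    exact this
  have h1 : i = ((m : ZMod (2 * m + 1)) + 1) * (i + i) := by
    linear_combination (-i) * h0
  have h2 : i' = ((m : ZMod (2 * m + 1)) + 1) * (i' + i') := by
    linear_combination (-i') * h0
  rw [h1, h2, h]

theorem isRealSat_rot {x y z : Lbl p} (h : IsRealSat y z x) : IsRealSat x y z := by
  obtain ⟨a, b, c, h1, h2, h3, h4⟩ := h
  refine ⟨c, a, b, h3, h1, h2, ?_⟩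
  revert h4
  cases a <;> cases b <;> cases c <;> decide

/-- Same rotation, two copies. -/
theorem good_same {m : ℕ} {x y z : Lbl (2 * m + 1)} (hns : ¬ IsRealSat x y z)
    {i i' : ZMod (2 * m + 1)} (h : Good i x y z) (h' : Good i' x y z) : i = i' := by
  rcases h with h | ⟨a, b, rfl, rfl, _, rfl⟩ | ⟨rfl, rfl, b, rfl⟩ | ⟨j, rfl, rfl, rfl⟩
  · exact absurd h hns
  · rcases h' with h' | ⟨a', b', h1, h2, _, h3⟩ | ⟨h1, _, _⟩ | ⟨j', h1, _, _⟩
    · exact absurd h' hns
    · simp only [Sum.inr.injEq] at h3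
      exact double_inj h3
    · simp at h1
    · simp at h1
  · rcases h' with h' | ⟨a', b', h1, _, _, _⟩ | ⟨h1, _, _⟩ | ⟨j', h1, _, h3⟩
    · exact absurd h' hns
    · simp at h1
    · simpa using h1
    · simp at h3
  · rcases h' with h' | ⟨a', b', h1, _, _, _⟩ | ⟨_, _, _, h3⟩ | ⟨j', h1, _, h3⟩
    · exact absurd h' hns
    · simp at h1
    · simp at h3
    · simp only [Sum.inr.injEq] at h1 h3
      subst h1
      exact add_left_cancel h3

/-- Two different rotations (the second one step further) cannot both be good. -/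
theorem good_next {m : ℕ} {x y z : Lbl (2 * m + 1)}
    {i i' : ZMod (2 * m + 1)} (hi : i ≠ 0) (hns : ¬ IsRealSat x y z)
    (h : Good i x y z) (h' : Good i' y z x) : False := by
  have hns' : ¬ IsRealSat y z x := fun hh => hns (isRealSat_rot hh)
  rcases h with h | ⟨a, b, rfl, rfl, _, rfl⟩ | ⟨rfl, rfl, b, rfl⟩ | ⟨j, rfl, rfl, rfl⟩
  · exact hns h
  · rcases h' with h' | ⟨a', b', _, h2, _, _⟩ | ⟨h1, _, _⟩ | ⟨j', h1, h2, _⟩
    · exact hns' h'
    · simp at h2
    · simp at h1
    · simp at h1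
  · rcases h' with h' | ⟨a', b', h1, _, _, _⟩ | ⟨_, h2, _⟩ | ⟨j', _, h2, _⟩
    · exact hns' h'
    · simp at h1
    · simp at h2
    · simp at h2
  · rcases h' with h' | ⟨a', b', h1, _, _, _⟩ | ⟨_, _, _, h3⟩ | ⟨j', h1, h2, _⟩
    · exact hns' h'
    · simp at h1
    · simp at h3
    · simp only [Sum.inr.injEq] at h1 h2
      subst h1
      exact hi (by simpa using h2)

/-- At most one rotation of at most one copy is good, unless the three labels are real and
form a Not-Two triple. -/
theorem good_unique {m : ℕ} (t : Fin 3 → Lbl (2 * m + 1)) (hns : ¬ IsRealSat (t 0) (t 1) (t 2))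
    {i i' : ZMod (2 * m + 1)} (hi : i ≠ 0) (hi' : i' ≠ 0) {r r' : Fin 3}
    (h : Good i (t r) (t (r + 1)) (t (r + 2))) (h' : Good i' (t r') (t (r' + 1)) (t (r' + 2))) :
    i = i' ∧ r = r' := by
  have n0 := hns
  have n2 : ¬ IsRealSat (t 1) (t 2) (t 0) := fun hh => hns (isRealSat_rot hh)
  have n1 : ¬ IsRealSat (t 2) (t 0) (t 1) := fun hh => n2 (isRealSat_rot hh)
  fin_cases r <;> fin_cases r' <;> simp only [Fin.zero_eta, Fin.mk_one, Fin.reduceFinMk] at h h' <;>
    simp only [zero_add, Fin.isValue, Fin.reduceAdd] at h h'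
  · exact ⟨good_same n0 h h', rfl⟩
  · exact (good_next hi n0 h h').elim
  · exact (good_next hi' n1 h' h).elim
  · exact (good_next hi' n0 h' h).elim
  · exact ⟨good_same n2 h h', rfl⟩
  · exact (good_next hi n2 h h').elim
  · exact (good_next hi n1 h h').elim
  · exact (good_next hi' n2 h' h).elim
  · exact ⟨good_same n1 h h', rfl⟩

end Vale.Agent.P339
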