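import Mathlib

/-!
2-to-1 games with alphabets `Fin (2 * q)` and `Fin q`, instances of Max-NTW (Not-Two on three
literals), and an explicit clause by clause gadget from the second to the first.
-/

open scoped BigOperators

namespace Vale.Agent.P339

/-- A 2-to-1 game: finite vertex sets `U`, `V`, a finite constraint set `E`, each constraint `e`
joining `u e` and `v e` through a map `proj e : Fin (2 * q) → Fin q` all of whose fibres have
exactly two elements, and a probability distribution `μ` on `E`. -/
structure TwoToOneGame (q : ℕ) where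
  U : Type
  V : Type
  E : Type
  [fU : Fintype U]
  [fV : Fintype V]
  [fE : Fintype E]
  u : E → U
  v : E → V
  proj : E → Fin (2 * q) → Fin q
  twoToOne : ∀ e b, (Finset.univ.filter fun a => proj e a = b).card = 2
  μ : E → ℝ
  μ_nonneg : ∀ e, 0 ≤ μ e
  μ_sum : ∑ e, μ e = 1

attribute [instance] TwoToOneGame.fU TwoToOneGame.fV TwoToOneGame.fE

/-- The `μ`-probability that the labeling `(A, B)` satisfies a random constraint. -/
noncomputable def TwoToOneGame.satWeight {q : ℕ} (G : TwoToOneGame q)
    (A : G.U → Fin (2 * q)) (B : G.V → Fin q) : ℝ :=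
  ∑ e, if G.proj e (A (G.u e)) = B (G.v e) then G.μ e else 0

/-- The value of the game: the largest `satWeight` over all labelings. -/
noncomputable def TwoToOneGame.value {q : ℕ} (G : TwoToOneGame q) : ℝ :=
  ⨆ x : (G.U → Fin (2 * q)) × (G.V → Fin q), G.satWeight x.1 x.2

/-- A literal over the variables `Fin n`: a variable and a sign. -/
structure Lit (n : ℕ) where
  var : Fin n
  neg : Bool

/-- The truth value of a literal under an assignment. -/
def Lit.val {n : ℕ} (l : Lit n) (σ : Fin n → Bool) : Bool := xor (σ l.var) l.neg

/-- The predicate Not-Two: the number of true values among three is different from two. -/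
abbrev notTwo (a b c : Bool) : Prop := [a, b, c].count true ≠ 2

/-- An instance of Max-NTW: `M + 1` clauses, each made of three literals. -/
structure NTWInstance (n M : ℕ) where
  clause : Fin (M + 1) → Fin 3 → Lit n

/-- Clause `c` is satisfied by `σ`. -/
abbrev NTWInstance.Sat {n M : ℕ} (I : NTWInstance n M) (σ : Fin n → Bool) (c : Fin (M + 1)) :
    Prop :=
  notTwo ((I.clause c 0).val σ) ((I.clause c 1).val σ) ((I.clause c 2).val σ)

/-- The largest fraction of clauses that an assignment satisfies. -/
noncomputable def NTWInstance.value {n M : ℕ} (I : NTWInstance n M) : ℝ :=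
  ⨆ σ : Fin n → Bool, ((Finset.univ.filter fun c => I.Sat σ c).card : ℝ) / (M + 1)

/-- Vertex labels: two real labels (`Sum.inl false` and `Sum.inl true`) and `p` further ones
indexed by `ZMod p`. -/
abbrev Lbl (p : ℕ) := Bool ⊕ ZMod p

/-- Negation on labels: it swaps the two real labels and fixes the others. -/
def swapL {p : ℕ} : Lbl p → Lbl p
  | .inl b => .inl (!b)
  | .inr z => .inr z

/-- The label of a literal of the given sign. -/
def sgn {p : ℕ} (neg : Bool) (t : Lbl p) : Lbl p := if neg then swapL t else t

/-- Second coordinate of the rows of a first type vertex (the first coordinate is `Prod.fst`). -/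
def rowY {p : ℕ} : Lbl p × Bool → Lbl p
  | (.inl _, b) => .inl b
  | (.inr j, _) => .inr j

/-- Auxiliary coordinate of the rows of a first type vertex. Read `inl false`, `inl true`,
`inr g` as the values 0, 1, 2 of the sum of the two bits. -/
def rowC1 {p : ℕ} (g : ZMod p) : Lbl p × Bool → Lbl p
  | (.inl false, b) => .inl b
  | (.inl true, false) => .inl true
  | (.inl true, true) => .inr g
  | (.inr j, b) => if j = g then (if b then .inr g else .inl false) else .inr j

/-- Auxiliary coordinate of the rows of a second type vertex (the other coordinate is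
`Prod.fst`). -/
def rowC2 {p : ℕ} (g d : ZMod p) : Lbl p × Bool → Lbl p
  | (.inl false, b) => .inl b
  | (.inl true, false) => .inl false
  | (.inl true, true) => .inr g
  | (.inr j, b) => if j = g + d then (if b then .inr g else .inl true) else .inr (j - d)

/-- The copies of the gadget: the nonzero elements of `ZMod (2 * m + 1)`. -/
abbrev Copy (m : ℕ) := {i : ZMod (2 * m + 1) // i ≠ 0}

/-- The five constraints of one rotation of one copy: `xU`, `yU`, `cU` leave the first type
vertex, `cW`, `zW` the second type vertex. -/
inductive Slot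
  | xU | yU | cU | cW | zW
  deriving DecidableEq

instance : Fintype Slot :=
  ⟨{.xU, .yU, .cU, .cW, .zW}, by intro x; cases x <;> simp⟩

theorem card_slot : Fintype.card Slot = 5 := rfl

/-- Left vertices: clause, copy, rotation, type. -/
abbrev UVert (M m : ℕ) := Fin (M + 1) × Copy m × Fin 3 × Bool

/-- Right vertices: a variable, or one auxiliary vertex per clause, copy and rotation. -/
abbrev VVert (n M m : ℕ) := Fin n ⊕ (Fin (M + 1) × Copy m × Fin 3)

/-- Constraints: clause, copy, rotation, slot. -/
abbrev Edge (M m : ℕ) := Fin (M + 1) × Copy m × Fin 3 × Slot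

/-- Left end of a constraint. -/
def edgeU {M m : ℕ} : Edge M m → UVert M m
  | (c, i, r, .xU) => (c, i, r, false)
  | (c, i, r, .yU) => (c, i, r, false)
  | (c, i, r, .cU) => (c, i, r, false)
  | (c, i, r, .cW) => (c, i, r, true)
  | (c, i, r, .zW) => (c, i, r, true)

/-- Right end of a constraint. -/
def edgeV {n M m : ℕ} (I : NTWInstance n M) : Edge M m → VVert n M m
  | (c, _, r, .xU) => .inl (I.clause c r).var
  | (c, _, r, .yU) => .inl (I.clause c (r + 1)).var
  | (c, i, r, .cU) => .inr (c, i, r)
  | (c, i, r, .cW) => .inr (c, i, r)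
  | (c, _, r, .zW) => .inl (I.clause c (r + 2)).var

/-- The map of a constraint, on rows `Lbl × Bool` and labels `Lbl`. -/
def rawProj {n M m : ℕ} (I : NTWInstance n M) :
    Edge M m → Lbl (2 * m + 1) × Bool → Lbl (2 * m + 1)
  | (c, _, r, .xU) => fun a => sgn (I.clause c r).neg a.1
  | (c, _, r, .yU) => fun a => sgn (I.clause c (r + 1)).neg (rowY a)
  | (_, i, _, .cU) => rowC1 i.1
  | (_, i, _, .cW) => rowC2 i.1 i.1
  | (c, _, r, .zW) => fun a => sgn (I.clause c (r + 2)).neg a.1

theorem card_lbl (m : ℕ) : Fintype.card (Lbl (2 * m + 1)) = 2 * m + 3 := by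
  simp [Fintype.card_sum, ZMod.card]
  omega

theorem card_row (m : ℕ) : Fintype.card (Lbl (2 * m + 1) × Bool) = 2 * (2 * m + 3) := by
  simp only [Fintype.card_prod, card_lbl, Fintype.card_bool]
  ring

/-- A fixed numbering of the right labels. -/
noncomputable def eR (m : ℕ) : Lbl (2 * m + 1) ≃ Fin (2 * m + 3) :=
  Fintype.equivFinOfCardEq (card_lbl m)

/-- A fixed numbering of the left labels. -/
noncomputable def eL (m : ℕ) : Lbl (2 * m + 1) × Bool ≃ Fin (2 * (2 * m + 3)) :=
  Fintype.equivFinOfCardEq (card_row m)

end Vale.Agent.P339
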