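import Vale.Agent.P339.Defs

open scoped BigOperators

namespace Vale.Agent.P339

variable {p : ℕ} [NeZero p]

/-- All fibres of `f` have exactly two elements. -/
def TwoFib {X Y : Type} [Fintype X] [DecidableEq Y] (f : X → Y) : Prop :=
  ∀ y, (Finset.univ.filter fun a => f a = y).card = 2

theorem card_two_of {X Y : Type} [Fintype X] [DecidableEq X] [DecidableEq Y] (f : X → Y) (y : Y)
    (x₁ x₂ : X) (hne : x₁ ≠ x₂) (h₁ : f x₁ = y) (h₂ : f x₂ = y)
    (h : ∀ a, f a = y → a = x₁ ∨ a = x₂) :
    (Finset.univ.filter fun a => f a = y).card = 2 := by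
  refine Finset.card_eq_two.mpr ⟨x₁, x₂, hne, ?_⟩
  ext a
  simp only [Finset.mem_filter, Finset.mem_univ, true_and, Finset.mem_insert,
    Finset.mem_singleton]
  constructor
  · exact h a
  · rintro (rfl | rfl)
    · exact h₁
    · exact h₂

theorem twoFib_fst : TwoFib (Prod.fst : Lbl p × Bool → Lbl p) := by
  intro y
  refine card_two_of _ y (y, false) (y, true) (by simp) rfl rfl ?_
  rintro ⟨a, c⟩ (rfl : a = y)
  cases c <;> simp

theorem twoFib_rowY : TwoFib (rowY : Lbl p × Bool → Lbl p) := by
  intro y
  rcases y with b | j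
  · refine card_two_of _ _ (.inl false, b) (.inl true, b) (by simp) (by simp [rowY])
      (by simp [rowY]) ?_
    rintro ⟨(a | z), c⟩ h
    · simp only [rowY, Sum.inl.injEq] at h
      subst h
      cases a <;> simp
    · simp [rowY] at h
  · refine card_two_of _ _ (.inr j, false) (.inr j, true) (by simp) (by simp [rowY])
      (by simp [rowY]) ?_
    rintro ⟨(a | z), c⟩ h
    · simp [rowY] at h
    · simp only [rowY, Sum.inr.injEq] at h
      subst h
      cases c <;> simp

theorem twoFib_rowC1 (g : ZMod p) : TwoFib (rowC1 g : Lbl p × Bool → Lbl p) := by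
  intro y
  rcases y with (_ | _) | j
  · refine card_two_of _ _ (.inl false, false) (.inr g, false) (by simp) (by simp [rowC1])
      (by simp [rowC1]) ?_
    rintro ⟨((_ | _) | z), (_ | _)⟩ h <;> simp [rowC1] at h ⊢
    · by_cases hz : z = g
      · exact hz
      · simp [hz] at h
    · by_cases hz : z = g <;> simp [hz] at h
  · refine card_two_of _ _ (.inl false, true) (.inl true, false) (by simp) (by simp [rowC1])
      (by simp [rowC1]) ?_
    rintro ⟨((_ | _) | z), (_ | _)⟩ h <;> simp [rowC1] at h ⊢
    all_goals (by_cases hz : z = g <;> simp [hz] at h)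
  · by_cases hj : j = g
    · subst hj
      refine card_two_of _ _ (.inl true, true) (.inr j, true) (by simp) (by simp [rowC1])
        (by simp [rowC1]) ?_
      rintro ⟨((_ | _) | z), (_ | _)⟩ h <;> simp [rowC1] at h ⊢
      all_goals (by_cases hz : z = j <;> simp_all)
    · refine card_two_of _ _ (.inr j, false) (.inr j, true) (by simp) (by simp [rowC1, hj])
        (by simp [rowC1, hj]) ?_
      rintro ⟨((_ | _) | z), (_ | _)⟩ h <;> simp [rowC1, Ne.symm hj] at h ⊢
      all_goals (by_cases hz : z = g <;> simp_all)

theorem twoFib_rowC2 (g d : ZMod p) : TwoFib (rowC2 g d : Lbl p × Bool → Lbl p) := by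
  intro y
  rcases y with (_ | _) | j
  · refine card_two_of _ _ (.inl false, false) (.inl true, false) (by simp) (by simp [rowC2])
      (by simp [rowC2]) ?_
    rintro ⟨((_ | _) | z), (_ | _)⟩ h <;> simp [rowC2] at h ⊢
    all_goals (by_cases hz : z = g + d <;> simp [hz] at h)
  · refine card_two_of _ _ (.inl false, true) (.inr (g + d), false) (by simp) (by simp [rowC2])
      (by simp [rowC2]) ?_
    rintro ⟨((_ | _) | z), (_ | _)⟩ h <;> simp [rowC2] at h ⊢
    all_goals (by_cases hz : z = g + d <;> simp_all)
  · by_cases hj : j = g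
    · subst hj
      refine card_two_of _ _ (.inl true, true) (.inr (j + d), true) (by simp) (by simp [rowC2])
        (by simp [rowC2]) ?_
      rintro ⟨((_ | _) | z), (_ | _)⟩ h <;> simp [rowC2] at h ⊢
      all_goals
        by_cases hz : z = j + d
        · simp_all
        · simp [hz] at h
          exact absurd (by rw [← h]; ring) hz
    · have hne : ¬ (j + d = g + d) := fun h => hj (add_right_cancel h)
      refine card_two_of _ _ (.inr (j + d), false) (.inr (j + d), true) (by simp)
        (by simp [rowC2, hne]) (by simp [rowC2, hne]) ?_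
      rintro ⟨((_ | _) | z), (_ | _)⟩ h <;> simp [rowC2, Ne.symm hj] at h ⊢
      all_goals
        by_cases hz : z = g + d
        · simp_all
        · simp only [hz, if_false, Sum.inr.injEq] at h
          rw [← h]; ring

omit [NeZero p] in
theorem swapL_swapL (t : Lbl p) : swapL (swapL t) = t := by
  rcases t with b | z <;> simp [swapL]

omit [NeZero p] in
theorem sgn_sgn (n : Bool) (t : Lbl p) : sgn n (sgn n t) = t := by
  cases n <;> simp [sgn, swapL_swapL]

theorem twoFib_sgn (n : Bool) (f : Lbl p × Bool → Lbl p) (hf : TwoFib f) :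
    TwoFib (fun a => sgn n (f a)) := by
  intro y
  have : (Finset.univ.filter fun a => sgn n (f a) = y)
      = Finset.univ.filter fun a => f a = sgn n y := by
    ext a
    simp only [Finset.mem_filter, Finset.mem_univ, true_and]
    constructor
    · intro h; rw [← h, sgn_sgn]
    · intro h; rw [h, sgn_sgn]
  rw [this]
  exact hf _

end Vale.Agent.P339
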