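import Vale.Agent.P339.Main

open scoped BigOperators

namespace Vale.Agent.P339

open Classical in
theorem satWeight_eq (m : ℕ) (hm : 0 < m) {n M : ℕ} (I : NTWInstance n M)
    (A : (gadget m hm I).U → Fin (2 * (2 * m + 3))) (B : (gadget m hm I).V → Fin (2 * m + 3)) :
    (gadget m hm I).satWeight A B =
      ((∑ e : Edge M m, if RawSat I (fun x => (eL m).symm (A x)) (fun x => (eR m).symm (B x)) e
        then 1 else 0 : ℕ) : ℝ) / (Fintype.card (Edge M m) : ℝ) := by
  have key : ∀ e : Edge M m,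
      (eR m (rawProj I e ((eL m).symm (A (edgeU e)))) = B (edgeV I e)) ↔
        RawSat I (fun x => (eL m).symm (A x)) (fun x => (eR m).symm (B x)) e := by
    intro e
    exact (Equiv.eq_symm_apply (eR m)).symm
  show (∑ e : Edge M m,
      if eR m (rawProj I e ((eL m).symm (A (edgeU e)))) = B (edgeV I e)
        then 1 / (Fintype.card (Edge M m) : ℝ) else 0) = _
  rw [Nat.cast_sum, Finset.sum_div]
  refine Finset.sum_congr rfl fun e _ => ?_
  by_cases h : RawSat I (fun x => (eL m).symm (A x)) (fun x => (eR m).symm (B x)) e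
  · rw [if_pos ((key e).mpr h), if_pos h]
    simp
  · rw [if_neg (fun h' => h ((key e).mp h')), if_neg h]
    simp

theorem satWeight_le_one {q : ℕ} (G : TwoToOneGame q) (A : G.U → Fin (2 * q)) (B : G.V → Fin q) :
    G.satWeight A B ≤ 1 := by
  unfold TwoToOneGame.satWeight
  rw [← G.μ_sum]
  refine Finset.sum_le_sum fun e _ => ?_
  split_ifs
  · exact le_rfl
  · exact G.μ_nonneg e

theorem value_le_of {q : ℕ} (hq : 0 < q) (G : TwoToOneGame q) (b : ℝ)
    (h : ∀ A B, G.satWeight A B ≤ b) : G.value ≤ b := by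
  unfold TwoToOneGame.value
  have : Nonempty ((G.U → Fin (2 * q)) × (G.V → Fin q)) :=
    ⟨(fun _ => ⟨0, by omega⟩, fun _ => ⟨0, hq⟩)⟩
  exact ciSup_le fun x => h x.1 x.2

theorem le_value_of {q : ℕ} (G : TwoToOneGame q) (A : G.U → Fin (2 * q)) (B : G.V → Fin q) :
    G.satWeight A B ≤ G.value := by
  unfold TwoToOneGame.value
  exact le_ciSup (f := fun x : (G.U → Fin (2 * q)) × (G.V → Fin q) => G.satWeight x.1 x.2)
    (Set.finite_range _).bddAbove (A, B)

theorem ntw_le_value {n M : ℕ} (I : NTWInstance n M) (σ : Fin n → Bool) :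
    ((Finset.univ.filter fun c => I.Sat σ c).card : ℝ) / (M + 1) ≤ I.value := by
  unfold NTWInstance.value
  exact le_ciSup (f := fun σ : Fin n → Bool =>
    ((Finset.univ.filter fun c => I.Sat σ c).card : ℝ) / (M + 1))
    (Set.finite_range _).bddAbove σ

open Classical in
/-- Soundness. -/
theorem soundness (m : ℕ) (hm : 0 < m) {n M : ℕ} (I : NTWInstance n M) :
    (gadget m hm I).value ≤ 1 - ((6 * m - 1) / (30 * m)) * (1 - I.value) := by
  refine value_le_of (by omega) _ _ fun A B => ?_
  rw [satWeight_eq]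
  set A' : UVert M m → Lbl (2 * m + 1) × Bool := fun x => (eL m).symm (A x)
  set B' : VVert n M m → Lbl (2 * m + 1) := fun x => (eR m).symm (B x)
  have htot := total_bound I A' B'
  set N := ∑ e : Edge M m, if RawSat I A' B' e then 1 else 0 with hN
  set V := (Finset.univ.filter fun c => ¬ I.Sat (decodeA B') c).card with hV
  set W := (Finset.univ.filter fun c => I.Sat (decodeA B') c).card with hW
  have hVW : W + V = M + 1 := by
    have := Finset.card_filter_add_card_filter_not (s := (Finset.univ : Finset (Fin (M + 1))))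
      (fun c => I.Sat (decodeA B') c)
    simpa [hV, hW] using this
  have hval : (W : ℝ) / (M + 1) ≤ I.value := by
    have h := ntw_le_value I (decodeA B')
    convert h using 3
  have hm' : (1 : ℝ) ≤ m := by exact_mod_cast hm
  have hMpos : (0 : ℝ) < (M : ℝ) + 1 := by positivity
  have hcard : (Fintype.card (Edge M m) : ℝ) = ((M : ℝ) + 1) * (30 * m) := by
    rw [card_edge]
    push_cast
    ring
  have htot' : (N : ℝ) + (6 * m - 1) * V ≤ ((M : ℝ) + 1) * (30 * m) := by
    have h1 : ((N + (6 * m - 1) * V : ℕ) : ℝ) ≤ (((M + 1) * (2 * m * (3 * 5)) : ℕ) : ℝ) := by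
      exact_mod_cast htot
    have h2 : ((6 * m - 1 : ℕ) : ℝ) = 6 * (m : ℝ) - 1 := by
      rw [Nat.cast_sub (by omega)]
      push_cast
      ring
    push_cast at h1
    rw [Nat.cast_sub (by omega)] at h1
    push_cast at h1
    nlinarith [h1]
  have hVW' : (W : ℝ) + V = (M : ℝ) + 1 := by exact_mod_cast hVW
  rw [hcard, div_le_iff₀ (by positivity)]
  have hδ : (0 : ℝ) ≤ (6 * m - 1) / (30 * m) := by
    apply div_nonneg <;> nlinarith
  have h1v : 1 - I.value ≤ V / ((M : ℝ) + 1) := by
    have : (W : ℝ) / ((M : ℝ) + 1) = 1 - V / ((M : ℝ) + 1) := by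
      field_simp
      linarith
    rw [this] at hval
    linarith
  have hstep : ((6 * (m : ℝ) - 1) / (30 * m)) * (1 - I.value) ≤
      ((6 * (m : ℝ) - 1) / (30 * m)) * (V / ((M : ℝ) + 1)) :=
    mul_le_mul_of_nonneg_left h1v hδ
  have hm0 : (m : ℝ) ≠ 0 := by positivity
  have hM0 : (M : ℝ) + 1 ≠ 0 := by positivity
  have hexp : (1 - ((6 * (m : ℝ) - 1) / (30 * m)) * (V / ((M : ℝ) + 1))) *
      (((M : ℝ) + 1) * (30 * m)) = ((M : ℝ) + 1) * (30 * m) - (6 * m - 1) * V := by
    field_simp
  have hpos : (0 : ℝ) < ((M : ℝ) + 1) * (30 * m) := by positivity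
  calc (N : ℝ) ≤ ((M : ℝ) + 1) * (30 * m) - (6 * m - 1) * V := by linarith
    _ = (1 - ((6 * (m : ℝ) - 1) / (30 * m)) * (V / ((M : ℝ) + 1))) *
        (((M : ℝ) + 1) * (30 * m)) := hexp.symm
    _ ≤ _ := by
        apply mul_le_mul_of_nonneg_right _ hpos.le
        linarith

theorem rowC2_of_notTwo {p : ℕ} (g : ZMod p) (x y z : Bool) (h : notTwo x y z) :
    rowC2 g g (.inl z, x || y) = rowC1 g (.inl x, y) := by
  revert h
  cases x <;> cases y <;> cases z <;> simp [rowC1, rowC2]

theorem notTwo_rot1 (a b c : Bool) (h : notTwo a b c) : notTwo b c a := by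
  revert h
  cases a <;> cases b <;> cases c <;> decide

theorem notTwo_rot (r : Fin 3) (v : Fin 3 → Bool) (h : notTwo (v 0) (v 1) (v 2)) :
    notTwo (v r) (v (r + 1)) (v (r + 2)) := by
  fin_cases r
  · exact h
  · exact notTwo_rot1 _ _ _ h
  · exact notTwo_rot1 _ _ _ (notTwo_rot1 _ _ _ h)

theorem sgn_lit {p n : ℕ} (l : Lit n) (σ : Fin n → Bool) :
    sgn l.neg (.inl (l.val σ) : Lbl p) = .inl (σ l.var) := by
  rcases hn : l.neg with _ | _
  · simp [sgn, Lit.val, hn]
  · simp [sgn, Lit.val, hn, swapL]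

/-- The left labels of the honest labeling. -/
def honestA {n M m : ℕ} (I : NTWInstance n M) (σ : Fin n → Bool) :
    UVert M m → Lbl (2 * m + 1) × Bool
  | (c, _, r, false) => (.inl ((I.clause c r).val σ), (I.clause c (r + 1)).val σ)
  | (c, _, r, true) =>
      (.inl ((I.clause c (r + 2)).val σ), (I.clause c r).val σ || (I.clause c (r + 1)).val σ)

/-- The right labels of the honest labeling. -/
def honestB {n M m : ℕ} (I : NTWInstance n M) (σ : Fin n → Bool) :
    VVert n M m → Lbl (2 * m + 1)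
  | .inl v => .inl (σ v)
  | .inr (c, i, r) => rowC1 i.1 (.inl ((I.clause c r).val σ), (I.clause c (r + 1)).val σ)

theorem honest_sat {n M m : ℕ} (I : NTWInstance n M) (σ : Fin n → Bool)
    (hσ : ∀ c, I.Sat σ c) (e : Edge M m) : RawSat I (honestA I σ) (honestB I σ) e := by
  obtain ⟨c, i, r, s⟩ := e
  cases s
  · exact sgn_lit _ _
  · exact sgn_lit _ _
  · rfl
  · have h := notTwo_rot r (fun k => (I.clause c k).val σ) (hσ c)
    exact rowC2_of_notTwo i.1 _ _ _ h
  · exact sgn_lit _ _

open Classical in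
/-- Completeness. -/
theorem completeness (m : ℕ) (hm : 0 < m) {n M : ℕ} (I : NTWInstance n M)
    (h : ∃ σ, ∀ c, I.Sat σ c) : (gadget m hm I).value = 1 := by
  obtain ⟨σ, hσ⟩ := h
  refine le_antisymm (value_le_of (by omega) _ _ fun A B => satWeight_le_one _ A B) ?_
  have hle := le_value_of (gadget m hm I)
    (fun x => eL m (honestA I σ x)) (fun x => eR m (honestB I σ x))
  refine le_trans (le_of_eq ?_) hle
  rw [satWeight_eq]
  have hc : (Fintype.card (Edge M m) : ℝ) ≠ 0 := by
    refine Nat.cast_ne_zero.mpr ?_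
    rw [card_edge]
    positivity
  have hs : (∑ e : Edge M m, if RawSat I (fun x => (eL m).symm (eL m (honestA I σ x)))
      (fun x => (eR m).symm (eR m (honestB I σ x))) e then 1 else 0) = Fintype.card (Edge M m) := by
    have : ∀ e : Edge M m, RawSat I (fun x => (eL m).symm (eL m (honestA I σ x)))
        (fun x => (eR m).symm (eR m (honestB I σ x))) e := by
      intro e
      simpa using honest_sat I σ hσ e
    calc _ = ∑ _e : Edge M m, 1 := Finset.sum_congr rfl (fun e _ => if_pos (this e))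
      _ = _ := by rw [Finset.sum_const, Finset.card_univ, smul_eq_mul, mul_one]
  rw [hs]
  exact (div_self hc).symm

end Vale.Agent.P339
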