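import Vale.Agent.P339.Fib

open scoped BigOperators

namespace Vale.Agent.P339

theorem card_copy (m : ℕ) : Fintype.card (Copy m) = 2 * m := by
  have h := Fintype.card_subtype_compl (fun x : ZMod (2 * m + 1) => x = 0)
  have h2 : Fintype.card {x : ZMod (2 * m + 1) // x = 0} = 1 := Fintype.card_subtype_eq _
  have h3 : Fintype.card (ZMod (2 * m + 1)) = 2 * m + 1 := ZMod.card _
  simp only [Copy, ne_eq]
  rw [h, h2, h3]
  omega

theorem card_edge (M m : ℕ) : Fintype.card (Edge M m) = (M + 1) * (2 * m * (3 * 5)) := by
  simp only [Edge, Fintype.card_prod, card_copy, Fintype.card_fin, card_slot]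

theorem rawProj_twoFib {n M m : ℕ} (I : NTWInstance n M) (e : Edge M m) :
    TwoFib (rawProj I e) := by
  obtain ⟨c, i, r, s⟩ := e
  cases s
  · exact twoFib_sgn _ _ twoFib_fst
  · exact twoFib_sgn _ _ twoFib_rowY
  · exact twoFib_rowC1 _
  · exact twoFib_rowC2 _ _
  · exact twoFib_sgn _ _ twoFib_fst

/-- The gadget game of a Max-NTW instance: for every clause, every copy `i` and every rotation of
the three literals, one left vertex with the three constraints `rowX`, `rowY`, `rowC1`, one left
vertex with the two constraints `rowC2`, `rowZ`, and one auxiliary right vertex; the distribution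
on constraints is uniform. -/
noncomputable def gadget (m : ℕ) (hm : 0 < m) {n M : ℕ} (I : NTWInstance n M) :
    TwoToOneGame (2 * m + 3) where
  U := UVert M m
  V := VVert n M m
  E := Edge M m
  u := edgeU
  v := edgeV I
  proj := fun e a => eR m (rawProj I e ((eL m).symm a))
  twoToOne := by
    intro e b
    have := rawProj_twoFib I e (((eR m).symm) b)
    refine Eq.trans ?_ this
    refine Finset.card_equiv (eL m).symm ?_
    intro a
    simp only [Finset.mem_filter, Finset.mem_univ, true_and]
    exact (Equiv.eq_symm_apply (eR m)).symm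
  μ := fun _ => 1 / (Fintype.card (Edge M m) : ℝ)
  μ_nonneg := fun _ => by positivity
  μ_sum := by
    have h : (Fintype.card (Edge M m) : ℝ) ≠ 0 := by
      refine Nat.cast_ne_zero.mpr ?_
      rw [card_edge]
      positivity
    rw [Finset.sum_const, Finset.card_univ, nsmul_eq_mul]
    exact mul_one_div_cancel h

end Vale.Agent.P339
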