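import Vale.Agent.P339.Core

open scoped BigOperators

namespace Vale.Agent.P339

/-- The constraint `e` is satisfied by the labeling `(A, B)` written on rows and labels. -/
def RawSat {n M m : ℕ} (I : NTWInstance n M) (A : UVert M m → Lbl (2 * m + 1) × Bool)
    (B : VVert n M m → Lbl (2 * m + 1)) (e : Edge M m) : Prop :=
  rawProj I e (A (edgeU e)) = B (edgeV I e)

theorem sum_slot (g : Slot → ℕ) : ∑ s, g s = g .xU + g .yU + g .cU + g .cW + g .zW := by
  have : (Finset.univ : Finset Slot) = {.xU, .yU, .cU, .cW, .zW} := rfl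
  rw [this]
  simp [Finset.sum_insert]
  ring

/-- The labels of the three literals of a clause. -/
def litLabel {n M m : ℕ} (I : NTWInstance n M) (B : VVert n M m → Lbl (2 * m + 1))
    (c : Fin (M + 1)) (k : Fin 3) : Lbl (2 * m + 1) :=
  sgn (I.clause c k).neg (B (.inl (I.clause c k).var))

theorem sgn_eq_iff {p : ℕ} (n : Bool) (a b : Lbl p) : sgn n a = b ↔ a = sgn n b := by
  constructor
  · intro h; rw [← h, sgn_sgn]
  · intro h; rw [h, sgn_sgn]

/-- Five satisfied constraints of one rotation of one copy force a good triple. -/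
theorem good_of_all {n M m : ℕ} (I : NTWInstance n M) (A : UVert M m → Lbl (2 * m + 1) × Bool)
    (B : VVert n M m → Lbl (2 * m + 1)) (c : Fin (M + 1)) (i : Copy m) (r : Fin 3)
    (h1 : RawSat I A B (c, i, r, .xU)) (h2 : RawSat I A B (c, i, r, .yU))
    (h3 : RawSat I A B (c, i, r, .cU)) (h4 : RawSat I A B (c, i, r, .cW))
    (h5 : RawSat I A B (c, i, r, .zW)) :
    Good i.1 (litLabel I B c r) (litLabel I B c (r + 1)) (litLabel I B c (r + 2)) := by
  simp only [RawSat, rawProj, edgeU, edgeV] at h1 h2 h3 h4 h5
  rw [sgn_eq_iff] at h1 h2 h5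
  have hg := good_of_rows i.1 (A (c, i, r, false)) (A (c, i, r, true)) (h3.trans h4.symm)
  rw [h1, h2, h5] at hg
  exact hg

/-- One rotation of one copy: the number of satisfied constraints is at most five, and at most
four if the triple is not good. -/
theorem slot_bound {n M m : ℕ} (I : NTWInstance n M) (A : UVert M m → Lbl (2 * m + 1) × Bool)
    (B : VVert n M m → Lbl (2 * m + 1)) (c : Fin (M + 1)) (i : Copy m) (r : Fin 3)
    [DecidablePred (RawSat I A B)]
    [Decidable (Good i.1 (litLabel I B c r) (litLabel I B c (r + 1)) (litLabel I B c (r + 2)))] :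
    (∑ s, if RawSat I A B (c, i, r, s) then 1 else 0) +
      (if Good i.1 (litLabel I B c r) (litLabel I B c (r + 1)) (litLabel I B c (r + 2))
        then 0 else 1) ≤ 5 := by
  rw [sum_slot]
  by_cases hg : Good i.1 (litLabel I B c r) (litLabel I B c (r + 1)) (litLabel I B c (r + 2))
  · rw [if_pos hg]
    split_ifs <;> omega
  · rw [if_neg hg]
    by_cases h1 : RawSat I A B (c, i, r, .xU) <;> by_cases h2 : RawSat I A B (c, i, r, .yU) <;>
      by_cases h3 : RawSat I A B (c, i, r, .cU) <;> by_cases h4 : RawSat I A B (c, i, r, .cW) <;>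
      by_cases h5 : RawSat I A B (c, i, r, .zW) <;>
      simp only [h1, h2, h3, h4, h5, if_true, if_false] <;> try omega
    exact absurd (good_of_all I A B c i r h1 h2 h3 h4 h5) hg

/-- The assignment read off a labeling. -/
def decodeA {n M m : ℕ} (B : VVert n M m → Lbl (2 * m + 1)) (v : Fin n) : Bool :=
  decide (B (.inl v) = .inl true)

theorem lit_val_of_label {n M m : ℕ} (B : VVert n M m → Lbl (2 * m + 1)) (l : Lit n) (a : Bool)
    (h : sgn l.neg (B (.inl l.var)) = .inl a) : l.val (decodeA B) = a := by
  rcases hn : l.neg with _ | _ <;> rw [hn] at h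
  · simp only [sgn, Bool.false_eq_true, if_false] at h
    simp [Lit.val, decodeA, h, hn]
  · simp only [sgn, if_true] at h
    rcases hB : B (.inl l.var) with b | z
    · rw [hB] at h
      simp only [swapL, Sum.inl.injEq] at h
      subst h
      cases b <;> simp [Lit.val, decodeA, hB, hn]
    · rw [hB] at h
      simp [swapL] at h

/-- A clause violated by the decoded assignment gives no real Not-Two triple. -/
theorem not_real_of_violated {n M m : ℕ} (I : NTWInstance n M)
    (B : VVert n M m → Lbl (2 * m + 1)) (c : Fin (M + 1)) (hc : ¬ I.Sat (decodeA B) c) :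
    ¬ IsRealSat (litLabel I B c 0) (litLabel I B c 1) (litLabel I B c 2) := by
  rintro ⟨a, b, d, h0, h1, h2, h3⟩
  apply hc
  have e0 := lit_val_of_label B _ _ h0
  have e1 := lit_val_of_label B _ _ h1
  have e2 := lit_val_of_label B _ _ h2
  simp only [NTWInstance.Sat]
  rw [e0, e1, e2]
  exact h3

open Classical in
/-- Per clause bound on the number of satisfied constraints. -/
theorem clause_bound {n M m : ℕ} (I : NTWInstance n M) (A : UVert M m → Lbl (2 * m + 1) × Bool)
    (B : VVert n M m → Lbl (2 * m + 1)) (c : Fin (M + 1)) :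
    (∑ i : Copy m, ∑ r : Fin 3, ∑ s, if RawSat I A B (c, i, r, s) then 1 else 0) +
      (if I.Sat (decodeA B) c then 0 else 6 * m - 1) ≤ 2 * m * (3 * 5) := by
  set g : Copy m → Fin 3 → ℕ := fun i r =>
    if Good i.1 (litLabel I B c r) (litLabel I B c (r + 1)) (litLabel I B c (r + 2))
      then 0 else 1 with hg
  have h1 : (∑ i : Copy m, ∑ r : Fin 3, ∑ s, if RawSat I A B (c, i, r, s) then 1 else 0) +
      (∑ i : Copy m, ∑ r : Fin 3, g i r) ≤ 2 * m * (3 * 5) := by
    rw [← Finset.sum_add_distrib]
    calc _ = ∑ i : Copy m, ∑ r : Fin 3,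
            ((∑ s, if RawSat I A B (c, i, r, s) then 1 else 0) + g i r) := by
          refine Finset.sum_congr rfl fun i _ => ?_
          rw [Finset.sum_add_distrib]
      _ ≤ ∑ _i : Copy m, ∑ _r : Fin 3, 5 := by
          refine Finset.sum_le_sum fun i _ => Finset.sum_le_sum fun r _ => ?_
          exact slot_bound I A B c i r
      _ = 2 * m * (3 * 5) := by
          simp
  by_cases hs : I.Sat (decodeA B) c
  · rw [if_pos hs]
    exact le_trans (Nat.le_add_right _ _) h1
  · rw [if_neg hs]
    have hns := not_real_of_violated I B c hs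
    -- at most one good pair
    set h : Copy m × Fin 3 → ℕ := fun x =>
      if Good x.1.1 (litLabel I B c x.2) (litLabel I B c (x.2 + 1)) (litLabel I B c (x.2 + 2))
        then 1 else 0 with hh
    have hone : ∑ x, h x ≤ 1 := by
      have : ∑ x, h x = (Finset.univ.filter fun x : Copy m × Fin 3 =>
          Good x.1.1 (litLabel I B c x.2) (litLabel I B c (x.2 + 1))
            (litLabel I B c (x.2 + 2))).card := by
        simp only [hh]
        rw [Finset.card_filter]
      rw [this, Finset.card_le_one]
      rintro ⟨i, r⟩ hx ⟨i', r'⟩ hy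
      simp only [Finset.mem_filter, Finset.mem_univ, true_and] at hx hy
      obtain ⟨h1, h2⟩ := good_unique (litLabel I B c) hns i.2 i'.2 hx hy
      rw [Subtype.ext h1, h2]
    have hsum : (∑ i : Copy m, ∑ r : Fin 3, g i r) + ∑ x, h x = 6 * m := by
      rw [Fintype.sum_prod_type, ← Finset.sum_add_distrib]
      calc _ = ∑ _i : Copy m, ∑ _r : Fin 3, 1 := by
            refine Finset.sum_congr rfl fun i _ => ?_
            rw [← Finset.sum_add_distrib]
            refine Finset.sum_congr rfl fun r _ => ?_
            simp only [hg, hh]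
            split_ifs <;> rfl
        _ = 6 * m := by
            simp
            ring
    omega

open Classical in
/-- Counting over all clauses. -/
theorem total_bound {n M m : ℕ} (I : NTWInstance n M) (A : UVert M m → Lbl (2 * m + 1) × Bool)
    (B : VVert n M m → Lbl (2 * m + 1)) :
    (∑ e : Edge M m, if RawSat I A B e then 1 else 0) +
      (6 * m - 1) * (Finset.univ.filter fun c => ¬ I.Sat (decodeA B) c).card
      ≤ (M + 1) * (2 * m * (3 * 5)) := by
  have h1 : (∑ e : Edge M m, if RawSat I A B e then 1 else 0) =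
      ∑ c : Fin (M + 1), ∑ i : Copy m, ∑ r : Fin 3, ∑ s,
        if RawSat I A B (c, i, r, s) then 1 else 0 := by
    simp only [Edge, Fintype.sum_prod_type]
  have h2 : (6 * m - 1) * (Finset.univ.filter fun c => ¬ I.Sat (decodeA B) c).card =
      ∑ c : Fin (M + 1), if I.Sat (decodeA B) c then 0 else 6 * m - 1 := by
    rw [Finset.card_filter, Finset.mul_sum]
    refine Finset.sum_congr rfl fun c _ => ?_
    by_cases h : I.Sat (decodeA B) c <;> simp [h]
  rw [h1, h2, ← Finset.sum_add_distrib]
  calc _ ≤ ∑ _c : Fin (M + 1), 2 * m * (3 * 5) :=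
        Finset.sum_le_sum fun c _ => clause_bound I A B c
    _ = _ := by simp

end Vale.Agent.P339
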